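import Mathlib

/-!
# P226: Voronoi partition for finitely many vectors and the Cauchy-Schwarz bound

For vectors `v 0, …, v m` the cells `V i` (points where `⟪y, v i⟫` is maximal, ties broken by the
least index) form a measurable partition, and the Gaussian mean of `max_i ⟪y, v i⟫` is at most
`sqrt (∑ ‖z i‖ ^ 2) * sqrt (∑ ‖v i‖ ^ 2)` with `z i` the Gaussian moment of the cell `V i`.
-/

namespace Vale.Agent.Lib.P226.H5

open MeasureTheory ProbabilityTheory Set

/-- Voronoi cell of index `i`: `f i` is maximal, and strictly larger than `f j` for `j < i`. -/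
def vor {E : Type*} {n : ℕ} (f : Fin n → E → ℝ) (i : Fin n) : Set E :=
  {y | (∀ j, f j y ≤ f i y) ∧ ∀ j, j < i → f j y < f i y}

theorem vor_measurable {E : Type*} [MeasurableSpace E] {n : ℕ} (f : Fin n → E → ℝ)
    (hf : ∀ i, Measurable (f i)) (i : Fin n) : MeasurableSet (vor f i) := by
  have e : vor f i = (⋂ j, {y | f j y ≤ f i y}) ∩ (⋂ j, ⋂ (_ : j < i), {y | f j y < f i y}) := by
    ext y
    constructor
    · rintro ⟨h1, h2⟩
      exact ⟨mem_iInter.2 h1, mem_iInter.2 (fun j => mem_iInter.2 (fun hj => h2 j hj))⟩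
    · rintro ⟨h1, h2⟩
      exact ⟨fun j => mem_iInter.1 h1 j, fun j hj => mem_iInter.1 (mem_iInter.1 h2 j) hj⟩
  rw [e]
  exact (MeasurableSet.iInter fun j => measurableSet_le (hf j) (hf i)).inter
    (MeasurableSet.iInter fun j => MeasurableSet.iInter fun _ => measurableSet_lt (hf j) (hf i))

theorem vor_disjoint {E : Type*} {n : ℕ} (f : Fin n → E → ℝ) (i j : Fin n) (hij : i ≠ j) :
    Disjoint (vor f i) (vor f j) := by
  rw [Set.disjoint_left]
  rintro y ⟨h1, h2⟩ ⟨h3, h4⟩
  rcases lt_or_gt_of_ne hij with h | h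
  · exact absurd (h4 i h) (not_lt.2 (h1 j))
  · exact absurd (h2 j h) (not_lt.2 (h3 i))

theorem vor_cover {E : Type*} {n : ℕ} (f : Fin (n + 1) → E → ℝ) :
    ⋃ i, vor f i = Set.univ := by
  classical
  apply Set.eq_univ_of_forall
  intro y
  rw [Set.mem_iUnion]
  have hS : (Finset.univ.filter (fun i : Fin (n + 1) => ∀ j, f j y ≤ f i y)).Nonempty := by
    obtain ⟨i, _, hi⟩ := Finset.exists_max_image Finset.univ (fun i : Fin (n + 1) => f i y)
      Finset.univ_nonempty
    exact ⟨i, Finset.mem_filter.2 ⟨Finset.mem_univ _, fun j => hi j (Finset.mem_univ _)⟩⟩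
  have hmin := (Finset.mem_filter.1 (Finset.min'_mem _ hS)).2
  refine ⟨Finset.min' _ hS, hmin, ?_⟩
  intro j hj
  by_contra hcon
  have hjS : j ∈ Finset.univ.filter (fun i : Fin (n + 1) => ∀ j, f j y ≤ f i y) := by
    refine Finset.mem_filter.2 ⟨Finset.mem_univ _, fun k => ?_⟩
    exact le_trans (hmin k) (not_lt.1 hcon)
  exact absurd (Finset.min'_le _ j hjS) (not_le.2 hj)

theorem exists_partition_integral_sup_le (d m : ℕ) (v : Fin (m + 1) → EuclideanSpace ℝ (Fin d)) :
    ∃ V : Fin (m + 1) → Set (EuclideanSpace ℝ (Fin d)), (∀ i, MeasurableSet (V i)) ∧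
      (∀ i j, i ≠ j → Disjoint (V i) (V j)) ∧ ⋃ i, V i = Set.univ ∧
      ∫ y, Finset.univ.sup' Finset.univ_nonempty (fun i => inner ℝ y (v i))
          ∂(stdGaussian (EuclideanSpace ℝ (Fin d)))
        ≤ Real.sqrt (∑ i, ‖∫ x in V i, x ∂(stdGaussian (EuclideanSpace ℝ (Fin d)))‖ ^ 2)
          * Real.sqrt (∑ i, ‖v i‖ ^ 2) := by
  classical
  have hcont : ∀ i : Fin (m + 1),
      Continuous (fun y : EuclideanSpace ℝ (Fin d) => (inner ℝ y (v i) : ℝ)) :=
    fun i => by fun_prop
  have hVm : ∀ i, MeasurableSet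
      (vor (fun (i : Fin (m + 1)) (y : EuclideanSpace ℝ (Fin d)) => (inner ℝ y (v i) : ℝ)) i) :=
    fun i => vor_measurable _ (fun j => (hcont j).measurable) i
  refine ⟨vor (fun i y => (inner ℝ y (v i) : ℝ)), hVm,
    fun i j hij => vor_disjoint _ i j hij, vor_cover _, ?_⟩
  have hid : Integrable (fun y : EuclideanSpace ℝ (Fin d) => y)
      (stdGaussian (EuclideanSpace ℝ (Fin d))) := IsGaussian.integrable_fun_id
  have hsupc : Continuous (fun y : EuclideanSpace ℝ (Fin d) =>
      Finset.univ.sup' Finset.univ_nonempty (fun i => (inner ℝ y (v i) : ℝ))) :=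
    Continuous.finset_sup'_apply Finset.univ_nonempty (fun i _ => hcont i)
  have hsupi : Integrable (fun y : EuclideanSpace ℝ (Fin d) =>
      Finset.univ.sup' Finset.univ_nonempty (fun i => (inner ℝ y (v i) : ℝ)))
      (stdGaussian (EuclideanSpace ℝ (Fin d))) := by
    refine Integrable.mono' (hid.norm.mul_const (∑ i, ‖v i‖)) hsupc.aestronglyMeasurable
      (Filter.Eventually.of_forall (fun y => ?_))
    obtain ⟨i, _, hi⟩ := Finset.exists_mem_eq_sup' Finset.univ_nonempty
      (fun i => (inner ℝ y (v i) : ℝ))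
    rw [hi, Real.norm_eq_abs]
    calc |(inner ℝ y (v i) : ℝ)| ≤ ‖y‖ * ‖v i‖ := abs_real_inner_le_norm y (v i)
      _ ≤ ‖y‖ * ∑ i, ‖v i‖ := by
        apply mul_le_mul_of_nonneg_left _ (norm_nonneg y)
        exact Finset.single_le_sum (f := fun i => ‖v i‖) (fun j _ => norm_nonneg _)
          (Finset.mem_univ i)
  have h1 : ∫ y, Finset.univ.sup' Finset.univ_nonempty (fun i => (inner ℝ y (v i) : ℝ))
        ∂(stdGaussian (EuclideanSpace ℝ (Fin d)))
      = ∑ i, ∫ y in vor (fun (i : Fin (m + 1)) (y : EuclideanSpace ℝ (Fin d)) =>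
            (inner ℝ y (v i) : ℝ)) i,
          Finset.univ.sup' Finset.univ_nonempty (fun i => (inner ℝ y (v i) : ℝ))
          ∂(stdGaussian (EuclideanSpace ℝ (Fin d))) := by
    rw [← integral_iUnion_fintype hVm (fun i j hij => vor_disjoint _ i j hij)
      (fun i => hsupi.integrableOn), vor_cover, setIntegral_univ]
  have h2 : ∀ i, ∫ y in vor (fun (i : Fin (m + 1)) (y : EuclideanSpace ℝ (Fin d)) =>
            (inner ℝ y (v i) : ℝ)) i,
          Finset.univ.sup' Finset.univ_nonempty (fun i => (inner ℝ y (v i) : ℝ))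
          ∂(stdGaussian (EuclideanSpace ℝ (Fin d)))
      = inner ℝ (v i) (∫ y in vor (fun (i : Fin (m + 1)) (y : EuclideanSpace ℝ (Fin d)) =>
            (inner ℝ y (v i) : ℝ)) i, y ∂(stdGaussian (EuclideanSpace ℝ (Fin d)))) := by
    intro i
    rw [← integral_inner hid.integrableOn (v i)]
    apply setIntegral_congr_fun (hVm i)
    intro y hy
    show Finset.univ.sup' Finset.univ_nonempty (fun i => (inner ℝ y (v i) : ℝ))
      = inner ℝ (v i) y
    rw [real_inner_comm]
    apply le_antisymm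
    · exact Finset.sup'_le _ _ (fun j _ => hy.1 j)
    · exact Finset.le_sup' (fun i => (inner ℝ y (v i) : ℝ)) (Finset.mem_univ i)
  rw [h1, Finset.sum_congr rfl (fun i _ => h2 i)]
  refine le_trans (Finset.sum_le_sum (fun i _ => ?_)) (Real.sum_mul_le_sqrt_mul_sqrt _ _ _)
  rw [mul_comm]
  exact real_inner_le_norm _ _

end Vale.Agent.Lib.P226.H5
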