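import Mathlib

/-!
# P226: a second moment of the standard Gaussian divided by the norm

For the standard Gaussian of `ℝ^(n+1)`: `E[⟪g, z⟫^2 / |g|] = |z|^2 E|g| / (n + 1)`, by rotation
invariance (a reflection exchanges two vectors of the same norm) and summation over the
coordinate vectors.
-/

namespace Vale.Agent.Lib.P226.H5G

open MeasureTheory ProbabilityTheory

/-- Integrability of `q ↦ ⟪q, z⟫^2 / |q|` for the standard Gaussian. -/
theorem integrable_inner_sq_div_norm (n : ℕ) (z : EuclideanSpace ℝ (Fin (n + 1))) :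
    Integrable (fun q : EuclideanSpace ℝ (Fin (n + 1)) => inner ℝ q z ^ 2 / ‖q‖)
      (stdGaussian (EuclideanSpace ℝ (Fin (n + 1)))) := by
  have hid : Integrable (fun q : EuclideanSpace ℝ (Fin (n + 1)) => q)
      (stdGaussian (EuclideanSpace ℝ (Fin (n + 1)))) := IsGaussian.integrable_fun_id
  have hmeas : Measurable
      (fun q : EuclideanSpace ℝ (Fin (n + 1)) => (inner ℝ q z : ℝ) ^ 2 / ‖q‖) := by
    fun_prop
  refine Integrable.mono' (hid.norm.mul_const (‖z‖ ^ 2)) hmeas.aestronglyMeasurable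
    (Filter.Eventually.of_forall (fun q => ?_))
  show ‖(inner ℝ q z : ℝ) ^ 2 / ‖q‖‖ ≤ ‖q‖ * ‖z‖ ^ 2
  rw [Real.norm_eq_abs, abs_div, abs_of_nonneg (sq_nonneg _), abs_of_nonneg (norm_nonneg q)]
  by_cases hq : ‖q‖ = 0
  · rw [hq, div_zero, zero_mul]
  · have hpos : 0 < ‖q‖ := lt_of_le_of_ne (norm_nonneg q) (Ne.symm hq)
    rw [div_le_iff₀ hpos]
    have h1 := abs_real_inner_le_norm q z
    have h2 : (inner ℝ q z : ℝ) ^ 2 ≤ (‖q‖ * ‖z‖) ^ 2 := by
      rw [← sq_abs]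
      exact pow_le_pow_left₀ (abs_nonneg _) h1 2
    calc (inner ℝ q z : ℝ) ^ 2 ≤ (‖q‖ * ‖z‖) ^ 2 := h2
      _ = ‖q‖ * ‖z‖ ^ 2 * ‖q‖ := by ring

/-- The quantity `E[⟪g, z⟫^2 / |g|]`. -/
noncomputable def J (n : ℕ) (z : EuclideanSpace ℝ (Fin (n + 1))) : ℝ :=
  ∫ q, inner ℝ q z ^ 2 / ‖q‖ ∂(stdGaussian (EuclideanSpace ℝ (Fin (n + 1))))

theorem J_map (n : ℕ)
    (U : EuclideanSpace ℝ (Fin (n + 1)) ≃ₗᵢ[ℝ] EuclideanSpace ℝ (Fin (n + 1)))
    (z : EuclideanSpace ℝ (Fin (n + 1))) : J n (U z) = J n z := by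
  have h := stdGaussian_map U
  have h2 : Measure.map (⇑U.toHomeomorph.toMeasurableEquiv)
      (stdGaussian (EuclideanSpace ℝ (Fin (n + 1))))
        = stdGaussian (EuclideanSpace ℝ (Fin (n + 1))) := h
  unfold J
  conv_lhs => rw [← h2]
  rw [integral_map_equiv]
  refine integral_congr_ae (Filter.Eventually.of_forall (fun q => ?_))
  show inner ℝ (U q) (U z) ^ 2 / ‖U q‖ = inner ℝ q z ^ 2 / ‖q‖
  rw [U.inner_map_map, U.norm_map]

theorem J_norm (n : ℕ) (z z' : EuclideanSpace ℝ (Fin (n + 1))) (h : ‖z‖ = ‖z'‖) :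
    J n z' = J n z := by
  have hU := Submodule.reflection_sub h
  rw [← hU]
  exact J_map n _ z

theorem J_smul (n : ℕ) (t : ℝ) (z : EuclideanSpace ℝ (Fin (n + 1))) :
    J n (t • z) = t ^ 2 * J n z := by
  unfold J
  rw [← integral_const_mul]
  refine integral_congr_ae (Filter.Eventually.of_forall (fun q => ?_))
  show inner ℝ q (t • z) ^ 2 / ‖q‖ = t ^ 2 * (inner ℝ q z ^ 2 / ‖q‖)
  rw [real_inner_smul_right]
  ring

theorem J_sum (n : ℕ) :
    ∑ j : Fin (n + 1), J n (EuclideanSpace.single j (1 : ℝ))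
      = ∫ q, ‖q‖ ∂(stdGaussian (EuclideanSpace ℝ (Fin (n + 1)))) := by
  unfold J
  rw [← integral_finsetSum _ (fun j _ => integrable_inner_sq_div_norm n _)]
  refine integral_congr_ae (Filter.Eventually.of_forall (fun q => ?_))
  show ∑ j : Fin (n + 1), (inner ℝ q (EuclideanSpace.single j (1 : ℝ)) : ℝ) ^ 2 / ‖q‖ = ‖q‖
  rw [← Finset.sum_div]
  have h1 : ∑ j : Fin (n + 1), (inner ℝ q (EuclideanSpace.single j (1 : ℝ)) : ℝ) ^ 2
      = ‖q‖ ^ 2 := by
    rw [EuclideanSpace.real_norm_sq_eq]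
    refine Finset.sum_congr rfl (fun j _ => ?_)
    rw [EuclideanSpace.inner_single_right]
    simp
  rw [h1]
  by_cases hq : ‖q‖ = 0
  · rw [hq]
    simp
  · field_simp

theorem integral_inner_sq_div_norm (n : ℕ) (z : EuclideanSpace ℝ (Fin (n + 1))) :
    ∫ q, inner ℝ q z ^ 2 / ‖q‖ ∂(stdGaussian (EuclideanSpace ℝ (Fin (n + 1))))
      = ‖z‖ ^ 2 / (n + 1) * ∫ q, ‖q‖ ∂(stdGaussian (EuclideanSpace ℝ (Fin (n + 1)))) := by
  have he : ∀ j : Fin (n + 1), J n (EuclideanSpace.single j (1 : ℝ))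
      = J n (EuclideanSpace.single 0 (1 : ℝ)) := fun j =>
    J_norm n (EuclideanSpace.single 0 (1 : ℝ)) (EuclideanSpace.single j (1 : ℝ)) (by simp)
  have hsum := J_sum n
  rw [Finset.sum_congr rfl (fun j _ => he j), Finset.sum_const, Finset.card_univ,
    Fintype.card_fin, nsmul_eq_mul] at hsum
  have hz : J n z = J n (‖z‖ • EuclideanSpace.single 0 (1 : ℝ)) :=
    J_norm n (‖z‖ • EuclideanSpace.single 0 (1 : ℝ)) z (by simp [norm_smul])
  show J n z = _
  rw [hz, J_smul, ← hsum]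
  push_cast
  field_simp

end Vale.Agent.Lib.P226.H5G
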